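import Vale.Agent.P365.T2.H629.MobFact

/-!
# P365 T2: `ErrX` is small on a good stage (629)
-/

set_option linter.all false

namespace P365T2.X629

open P365L P365O P365T1 P365L.TL Matrix Complex MeasureTheory Filter Topology Set
open Vale.Agent.P365.J376 P365H219 P365T2.H213 P365T2.H320U
open scoped ComplexConjugate ENNReal

theorem nJ_le {C1 S : ℝ} (hC1 : 0 ≤ C1) (hS : 0 ≤ S) : (nJ C1 S : ℝ) ≤ C1 * S + 2 := by
  unfold nJ
  push_cast
  have := Nat.ceil_lt_add_one (mul_nonneg hC1 hS)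
  linarith

theorem le_nJ (C1 S : ℝ) : C1 * S + 1 ≤ nJ C1 S := by
  unfold nJ
  push_cast
  linarith [Nat.le_ceil (C1 * S)]

theorem one_le_nJ (C1 S : ℝ) : 1 ≤ nJ C1 S := by
  unfold nJ
  omega

theorem log_four_ge : (4 : ℝ) / 3 ≤ Real.log 4 := by
  have h1 : Real.log 4 = 2 * Real.log 2 := by
    rw [show (4 : ℝ) = 2 ^ 2 by norm_num, Real.log_pow]; norm_num
  have := Real.log_two_gt_d9
  linarith

theorem four_pow_nJ_ge {C1 S : ℝ} (hC1 : 0 ≤ C1) (hS : 0 ≤ S) :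
    Real.exp (4 / 3 * (C1 * S)) ≤ 4 ^ nJ C1 S := by
  have h1 : (4 : ℝ) ^ nJ C1 S = Real.exp (Real.log 4 * nJ C1 S) := by
    rw [← Real.rpow_natCast, Real.rpow_def_of_pos (by norm_num)]
  rw [h1]
  refine Real.exp_le_exp.2 ?_
  have h2 := le_nJ C1 S
  have h3 := log_four_ge
  have h4 := mul_nonneg hC1 hS
  nlinarith

theorem sixteen_pow_nJ_le {C1 S : ℝ} (hC1 : 0 ≤ C1) (hS : 0 ≤ S) :
    (16 : ℝ) ^ nJ C1 S ≤ 512 * Real.exp (3 * (C1 * S)) := by
  have h1 : (16 : ℝ) ^ nJ C1 S = Real.exp (Real.log 16 * nJ C1 S) := by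
    rw [← Real.rpow_natCast, Real.rpow_def_of_pos (by norm_num)]
  have h2 := nJ_le hC1 hS
  have h3 := P365T2.H844.log_sixteen_le
  have h30 : 0 ≤ Real.log 16 := Real.log_nonneg (by norm_num)
  have h4 := mul_nonneg hC1 hS
  have h5 : Real.log 16 * nJ C1 S ≤ Real.log 16 * 2 + 3 * (C1 * S) := by
    have : Real.log 16 * nJ C1 S ≤ Real.log 16 * (C1 * S + 2) :=
      mul_le_mul_of_nonneg_left h2 h30
    nlinarith
  rw [h1]
  refine (Real.exp_le_exp.2 h5).trans ?_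
  rw [Real.exp_add]
  refine mul_le_mul_of_nonneg_right ?_ (Real.exp_pos _).le
  have h6 : Real.exp (Real.log 16 * 2) = 256 := by
    rw [mul_comm, two_mul, Real.exp_add, Real.exp_log (by norm_num)]
    norm_num
  rw [h6]
  norm_num

theorem exp_neg_le_inv {x : ℝ} (hx : 0 < x) : Real.exp (-x) ≤ 1 / x := by
  rw [Real.exp_neg, ← one_div]
  exact one_div_le_one_div_of_le hx (by linarith [Real.add_one_le_exp x])

/-- all the errors of the ONE side are small on a good stage -/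
theorem err_small {C1 δ : ℝ} (hC1 : 0 < C1) (hδ : 0 < δ) : ∃ η₀ : ℝ, 0 < η₀ ∧
    ∀ {lam E : ℝ} {N : ℕ} [NeZero N] (W : StW N) (η : ℝ), 0 < η → η ≤ η₀ → W.Ok lam E C1 η →
      ∀ τ ∈ Set.Icc 0 W.S, ErrX W E C1 τ ≤ δ := by
  set B : ℝ := 16 * (C1 + 1) + 512 + 3 / C1 + 1 + 98304 with hB
  have hB0 : 0 < B := by positivity
  refine ⟨min (min 1 (1 / (3 * C1 + 1))) (δ / B), lt_min (lt_min one_pos (by positivity))
    (by positivity), fun {lam E N} _ W η hη hη0 hok τ hτ => ?_⟩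
  have hη1 : η ≤ 1 := (hη0.trans (min_le_left _ _)).trans (min_le_left _ _)
  have hη2 : η ≤ 1 / (3 * C1 + 1) := (hη0.trans (min_le_left _ _)).trans (min_le_right _ _)
  have hη3 : η ≤ δ / B := hη0.trans (min_le_right _ _)
  have hS1 := hok.S_ge
  have hS : 1 ≤ W.S := le_trans (by rw [le_div_iff₀ hη]; linarith) hS1
  have hS0 : 0 < W.S := by linarith
  have hSi : 1 / W.S ≤ η := by
    rw [div_le_iff₀ hS0]
    rw [div_le_iff₀ hη] at hS1
    linarith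
  have hN : 0 < (N : ℝ) ^ 2 := by
    have : (0 : ℝ) < N := Nat.cast_pos.2 (Nat.pos_of_ne_zero (NeZero.ne N))
    positivity
  set J := nJ C1 W.S with hJ
  -- hub sum
  have h1 : W.Yg E (uF N J) τ ≤ 16 * (C1 + 1) * η * (N : ℝ) ^ 2 := by
    have h2 := hok.hub τ hτ _ (uF N J) 4 (by norm_num) VecLip_uF
    have h3 := hok.en_le τ hτ _ (uF N J) 4 (by norm_num) VecLip_uF
    have h4 : η / W.S ^ 8 ≤ η := div_le_self hη.le (one_le_pow₀ hS)
    have h5 : 0 ≤ W.Phi E (uF N J) τ + 4 ^ 2 * (N : ℝ) ^ 2 := by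
      have := Phi_nonneg hok (uF N J) τ
      positivity
    calc W.Yg E (uF N J) τ ≤ η / W.S ^ 8 * (W.Phi E (uF N J) τ + 4 ^ 2 * (N : ℝ) ^ 2) := h2
      _ ≤ η * (W.Phi E (uF N J) τ + 4 ^ 2 * (N : ℝ) ^ 2) := mul_le_mul_of_nonneg_right h4 h5
      _ ≤ η * (C1 * (4 ^ 2 * (N : ℝ) ^ 2) + 4 ^ 2 * (N : ℝ) ^ 2) :=
          mul_le_mul_of_nonneg_left (by linarith) hη.le
      _ = _ := by ring
  have h9 : 3 * C1 + 1 ≤ 1 / η := by
    rw [le_div_iff₀ hη]
    rw [le_div_iff₀ (by positivity)] at hη2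
    linarith
  have h10 : Real.exp (3 * (C1 * W.S)) * Real.exp (-(W.S / η)) ≤ η := by
    rw [← Real.exp_add]
    have h11 : 3 * (C1 * W.S) + -(W.S / η) ≤ -W.S := by
      have : W.S * (3 * C1 + 1) ≤ W.S * (1 / η) := mul_le_mul_of_nonneg_left h9 hS0.le
      rw [mul_one_div] at this
      linarith
    exact (Real.exp_le_exp.2 h11).trans ((exp_neg_le_inv hS0).trans hSi)
  -- small torus
  have h100 : 192 * 4 ^ J / (N : ℝ) ≤ 98304 * η := by
    have h8 := sixteen_pow_nJ_le hC1.le hS0.le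
    have h8' : (4 : ℝ) ^ J ≤ 16 ^ J := pow_le_pow_left₀ (by norm_num) (by norm_num) _
    have hN1 : Real.exp (W.S / η) ≤ N := hok.N_ge
    have h8'' : 1 / (N : ℝ) ≤ Real.exp (-(W.S / η)) := by
      rw [Real.exp_neg, ← one_div]
      exact one_div_le_one_div_of_le (Real.exp_pos _) hN1
    calc 192 * 4 ^ J / (N : ℝ) = 192 * (4 ^ J * (1 / (N : ℝ))) := by ring
      _ ≤ 192 * (512 * Real.exp (3 * (C1 * W.S)) * Real.exp (-(W.S / η))) :=
          mul_le_mul_of_nonneg_left (mul_le_mul (h8'.trans h8) h8''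
            (by positivity) (by positivity)) (by norm_num)
      _ = 98304 * (Real.exp (3 * (C1 * W.S)) * Real.exp (-(W.S / η))) := by ring
      _ ≤ _ := mul_le_mul_of_nonneg_left h10 (by norm_num)
  -- static share
  have h6 : 16 ^ J * W.EM E W.u τ ≤ 512 * η * (N : ℝ) ^ 2 := by
    have h7 := hok.share τ hτ
    have h8 := sixteen_pow_nJ_le hC1.le hS0.le
    calc (16 : ℝ) ^ J * W.EM E W.u τ
        ≤ 512 * Real.exp (3 * (C1 * W.S)) * (Real.exp (-(W.S / η)) * (N : ℝ) ^ 2) :=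
          mul_le_mul h8 h7 (EM_nonneg hok (fun l x => (Ok_u_pos hok l x).le) τ) (by positivity)
      _ = 512 * (Real.exp (3 * (C1 * W.S)) * Real.exp (-(W.S / η))) * (N : ℝ) ^ 2 := by ring
      _ ≤ _ := by
          refine mul_le_mul_of_nonneg_right ?_ hN.le
          linarith
  -- far part
  have h12 : W.M4 E τ / 4 ^ J ≤ 3 / C1 * η * (N : ℝ) ^ 2 := by
    have h13 := hok.m4 τ hτ
    have h14 := four_pow_nJ_ge hC1.le hS0.le
    have h15 : Real.exp (C1 * W.S) / 4 ^ J ≤ 3 / C1 * η := by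
      calc Real.exp (C1 * W.S) / 4 ^ J ≤ Real.exp (C1 * W.S) / Real.exp (4 / 3 * (C1 * W.S)) :=
            div_le_div_of_nonneg_left (Real.exp_pos _).le (Real.exp_pos _) h14
        _ = Real.exp (-(C1 * W.S / 3)) := by
            rw [← Real.exp_sub]
            congr 1
            ring
        _ ≤ 1 / (C1 * W.S / 3) := exp_neg_le_inv (by positivity)
        _ = 3 / C1 * (1 / W.S) := by
            field_simp
        _ ≤ _ := mul_le_mul_of_nonneg_left hSi (by positivity)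
    calc W.M4 E τ / 4 ^ J ≤ Real.exp (C1 * W.S) * (N : ℝ) ^ 2 / 4 ^ J :=
          div_le_div_of_nonneg_right h13 (by positivity)
      _ = Real.exp (C1 * W.S) / 4 ^ J * (N : ℝ) ^ 2 := by ring
      _ ≤ _ := mul_le_mul_of_nonneg_right h15 hN.le
  unfold ErrX
  have h19 : 1 / |W.S| ≤ η := by rwa [abs_of_pos hS0]
  have h20 : (W.Yg E (uF N (nJ C1 W.S)) τ + 16 ^ nJ C1 W.S * W.EM E W.u τ +
      W.M4 E τ / 4 ^ nJ C1 W.S) / (N : ℝ) ^ 2 ≤ δ - η - 98304 * η := by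
    rw [← hJ, div_le_iff₀ hN]
    have h16 : B * η ≤ δ := by
      rw [le_div_iff₀ hB0] at hη3
      linarith
    have h17 : B * η * (N : ℝ) ^ 2 ≤ δ * (N : ℝ) ^ 2 := mul_le_mul_of_nonneg_right h16 hN.le
    have h18 : B * η * (N : ℝ) ^ 2 = 16 * (C1 + 1) * η * (N : ℝ) ^ 2 + 512 * η * (N : ℝ) ^ 2 +
        3 / C1 * η * (N : ℝ) ^ 2 + η * (N : ℝ) ^ 2 + 98304 * η * (N : ℝ) ^ 2 := by
      rw [hB]
      ring
    linarith
  rw [← hJ] at h20 ⊢
  linarith

/-- short stages are an error -/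
theorem inv_S_le_ErrX {lam E C1 η : ℝ} {N : ℕ} [NeZero N] {W : StW N} (hok : W.Ok lam E C1 η)
    (D τ : ℝ) : 1 / |W.S| ≤ ErrX W E D τ := by
  unfold ErrX
  have h1 := Yg_nonneg hok (uF N (nJ D W.S)) τ
  have h2 := EM_nonneg hok (g := W.u) (fun l x => (Ok_u_pos hok l x).le) τ
  have h3 := M4_nonneg hok τ
  have h4 : 0 ≤ (W.Yg E (uF N (nJ D W.S)) τ + 16 ^ nJ D W.S * W.EM E W.u τ +
    W.M4 E τ / 4 ^ nJ D W.S) / (N : ℝ) ^ 2 := by positivity
  have h5 : 0 ≤ 192 * 4 ^ nJ D W.S / (N : ℝ) := by positivity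
  linarith

/-- **small tori are an error** (788): the blocks fit or `1 ≤ ErrX` -/
theorem big_or_one_le_ErrX {lam E C1 η : ℝ} {N : ℕ} [NeZero N] {W : StW N}
    (hok : W.Ok lam E C1 η) (D τ : ℝ) :
    12 * 2 ^ (2 * nJ D W.S + 4) < N ∨ 1 ≤ ErrX W E D τ := by
  by_cases h : 12 * 2 ^ (2 * nJ D W.S + 4) < N
  · exact Or.inl h
  right
  push Not at h
  have hN : 0 < (N : ℝ) := Nat.cast_pos.2 (Nat.pos_of_ne_zero (NeZero.ne N))
  have h0 : (N : ℝ) ≤ 192 * 4 ^ nJ D W.S := by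
    have h1 : (N : ℝ) ≤ ((12 * 2 ^ (2 * nJ D W.S + 4) : ℕ) : ℝ) := Nat.cast_le.2 h
    refine h1.trans (le_of_eq ?_)
    push_cast
    rw [pow_add, pow_mul]
    norm_num
    ring
  have h6 : 1 ≤ 192 * 4 ^ nJ D W.S / (N : ℝ) := (one_le_div hN).2 h0
  unfold ErrX
  have h1 := Yg_nonneg hok (uF N (nJ D W.S)) τ
  have h2 := EM_nonneg hok (g := W.u) (fun l x => (Ok_u_pos hok l x).le) τ
  have h3 := M4_nonneg hok τ
  have h4 : 0 ≤ (W.Yg E (uF N (nJ D W.S)) τ + 16 ^ nJ D W.S * W.EM E W.u τ +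
    W.M4 E τ / 4 ^ nJ D W.S) / (N : ℝ) ^ 2 := by positivity
  have h5 : 0 ≤ 1 / |W.S| := by positivity
  linarith

/-- the energy of the union family is bounded -/
theorem EnX_le {lam E C1 η : ℝ} {N : ℕ} [NeZero N] {W : StW N} (hok : W.Ok lam E C1 η) {τ : ℝ}
    (hτ : τ ∈ Set.Icc 0 W.S) (D : ℝ) : EnX W E D τ ≤ 16 * C1 := by
  have hN : 0 < (N : ℝ) ^ 2 := by
    have : (0 : ℝ) < N := Nat.cast_pos.2 (Nat.pos_of_ne_zero (NeZero.ne N))
    positivity
  unfold EnX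
  rw [div_le_iff₀ hN]
  have h3 := hok.en_le τ hτ _ (uF N (nJ D W.S)) 4 (by norm_num) VecLip_uF
  linarith

end P365T2.X629
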