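import Vale.Agent.P365.T2.H320.PhiR
import Vale.Agent.P365.H219.TL2

/-!
# P365 T2: from the mobile content of the position field to the one of the truncated field (629)

`mobc_bridge`: one row.  `MobG_bridge`: averaged.
-/

set_option linter.all false

namespace P365T2.X629

open P365L P365O P365T1 P365L.TL Matrix Complex MeasureTheory Filter Topology Set
open Vale.Agent.P365.J376 P365H219
open scoped ComplexConjugate ENNReal

section row

variable {ι κ κ' : Type*} [Fintype ι] [DecidableEq ι] [Fintype κ] [Fintype κ']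
  {A : Matrix ι ι ℝ} {W : ι → ℂ}

/-- **one row**: mobile for the field `a` implies mobile for the truncated field `b`, unless a part
`θ / 4` of the second moment comes from `4 d2 > r` -/
theorem mobc_bridge (hA : A.IsSymm) (hW : ∀ x, (W x).im < 0) (a : κ → ι → ℝ) (b : κ' → ι → ℝ)
    {r θ : ℝ} (hr : 0 < r) (hθ : 0 < θ) (hθ1 : θ ≤ 1)
    (hab : ∀ x y, d2 b x y = r * (4 * d2 a x y) / (r + 4 * d2 a x y)) (x : ι) :
    mobc A W a θ x ≤ mobc A W b (θ / 8) x +
      16 / (θ * r) * (mm A W x * ∑ y, PP A W x y * d2 a y x ^ 2) := by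
  classical
  have hm := mm_pos hA hW x
  set P : ι → ℝ := fun y => PP A W x y with hP
  have hP0 : ∀ y, 0 ≤ P y := fun y => PP_nonneg hA hW x y
  have hP1 : ∑ y, P y = 1 := PP_sum hA hW x
  set t : ι → ℝ := fun y => d2 a y x with ht
  have ht0 : ∀ y, 0 ≤ t y := fun y => d2_nonneg a y x
  set s : ι → ℝ := fun y => d2 b y x with hs
  have hse : ∀ y, s y = r * (4 * t y) / (r + 4 * t y) := fun y => hab y x
  have hs0 : ∀ y, 0 ≤ s y := fun y => d2_nonneg b y x
  have hs4 : ∀ y, s y ≤ 4 * t y := by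
    intro y
    rw [hse, div_le_iff₀ (by have := ht0 y; positivity)]
    nlinarith [ht0 y, mul_nonneg (ht0 y) (ht0 y)]
  have hs2 : ∀ y, ¬ r < 4 * t y → 2 * t y ≤ s y := by
    intro y hy
    rw [hse, le_div_iff₀ (by have := ht0 y; positivity)]
    nlinarith [ht0 y, mul_nonneg (ht0 y) (sub_nonneg.2 (not_lt.1 hy))]
  set V : ℝ := ∑ y, P y * t y with hV
  set f : ℝ := ∑ y, P y * (if r < 4 * t y then t y else 0) with hf
  set M : ℝ := ∑ y, P y * t y ^ 2 with hM
  have hV0 : 0 ≤ V := Finset.sum_nonneg fun y _ => mul_nonneg (hP0 y) (ht0 y)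
  have hM0 : 0 ≤ M := Finset.sum_nonneg fun y _ => mul_nonneg (hP0 y) (sq_nonneg _)
  have hf0 : 0 ≤ f := Finset.sum_nonneg fun y _ => mul_nonneg (hP0 y) (by
    split_ifs
    · exact ht0 y
    · exact le_rfl)
  -- the far part
  have hfM : f ≤ 4 / r * M := by
    rw [hf, hM, Finset.mul_sum]
    refine Finset.sum_le_sum fun y _ => ?_
    rw [mul_left_comm]
    refine mul_le_mul_of_nonneg_left ?_ (hP0 y)
    split_ifs with h
    · rw [div_mul_eq_mul_div, le_div_iff₀ hr]
      nlinarith [ht0 y]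
    · have := ht0 y
      positivity
  have hVb : v2 A W b x = ∑ y, P y * s y := rfl
  have hVa : v2 A W a x = V := rfl
  have hla : l1 A W a x = ∑ y, P y * Real.sqrt (t y) := rfl
  have hlb : l1 A W b x = ∑ y, P y * Real.sqrt (s y) := rfl
  have hb0 : 0 ≤ mobc A W b (θ / 8) x := mobc_nonneg hA hW b _ x
  have hR0 : 0 ≤ 16 / (θ * r) * (mm A W x * M) := by positivity
  by_cases hmob : θ * v2 A W a x ≤ l1 A W a x ^ 2
  swap
  · unfold mobc at hb0 ⊢
    rw [if_neg hmob]
    positivity
  have e1 : mobc A W a θ x = mm A W x * V := by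
    unfold mobc
    rw [if_pos hmob, hVa]
  rw [e1]
  by_cases hfar : θ / 4 * V < f
  · -- far rows
    have h1 : mm A W x * V ≤ 16 / (θ * r) * (mm A W x * M) := by
      have h2 : V ≤ 4 / θ * f := by
        rw [div_mul_eq_mul_div, le_div_iff₀ hθ]
        linarith
      have h3 : V ≤ 16 / (θ * r) * M := by
        calc V ≤ 4 / θ * f := h2
          _ ≤ 4 / θ * (4 / r * M) := mul_le_mul_of_nonneg_left hfM (by positivity)
          _ = _ := by
            field_simp
            ring
      calc mm A W x * V ≤ mm A W x * (16 / (θ * r) * M) := mul_le_mul_of_nonneg_left h3 hm.le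
        _ = _ := by ring
    linarith
  · push Not at hfar
    -- second moments
    have h1 : 2 * (V - f) ≤ v2 A W b x := by
      rw [hVb, hV, hf, ← Finset.sum_sub_distrib, Finset.mul_sum]
      refine Finset.sum_le_sum fun y _ => ?_
      by_cases h : r < 4 * t y
      · rw [if_pos h, sub_self, mul_zero]
        exact mul_nonneg (hP0 y) (hs0 y)
      · rw [if_neg h, mul_zero, sub_zero, mul_left_comm]
        exact mul_le_mul_of_nonneg_left (hs2 y h) (hP0 y)
    have h2 : v2 A W b x ≤ 4 * V := by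
      rw [hVb, hV, Finset.mul_sum]
      refine Finset.sum_le_sum fun y _ => ?_
      rw [mul_left_comm]
      exact mul_le_mul_of_nonneg_left (hs4 y) (hP0 y)
    have h3 : V ≤ v2 A W b x := by nlinarith
    -- first moments
    set g : ℝ := ∑ y, P y * (if r < 4 * t y then Real.sqrt (t y) else 0) with hg
    have hg0 : 0 ≤ g := Finset.sum_nonneg fun y _ => mul_nonneg (hP0 y) (by
      split_ifs
      · exact Real.sqrt_nonneg _
      · exact le_rfl)
    have hgf : g ^ 2 ≤ f := by
      have h4 := Finset.sum_mul_sq_le_sq_mul_sq (Finset.univ : Finset ι)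
        (fun y => Real.sqrt (P y)) (fun y => Real.sqrt (P y) *
          (if r < 4 * t y then Real.sqrt (t y) else 0))
      have e2 : ∑ y, Real.sqrt (P y) * (Real.sqrt (P y) *
          (if r < 4 * t y then Real.sqrt (t y) else 0)) = g := by
        rw [hg]
        refine Finset.sum_congr rfl fun y _ => ?_
        rw [← mul_assoc, Real.mul_self_sqrt (hP0 y)]
      have e3 : ∑ y, Real.sqrt (P y) ^ 2 = 1 := by
        rw [← hP1]
        exact Finset.sum_congr rfl fun y _ => Real.sq_sqrt (hP0 y)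
      have e4 : ∑ y, (Real.sqrt (P y) * (if r < 4 * t y then Real.sqrt (t y) else 0)) ^ 2 = f := by
        rw [hf]
        refine Finset.sum_congr rfl fun y _ => ?_
        rw [mul_pow, Real.sq_sqrt (hP0 y)]
        congr 1
        split_ifs
        · exact Real.sq_sqrt (ht0 y)
        · ring
      rw [e2, e3, e4, one_mul] at h4
      exact h4
    set l : ℝ := l1 A W a x with hl
    have hl0 : 0 ≤ l := l1_nonneg hA hW a x
    rw [hVa] at hmob
    have hgl : g ≤ l / 2 := by
      refine le_of_sq_le_sq ?_ (by positivity)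
      nlinarith
    have h5 : Real.sqrt 2 * (l - g) ≤ l1 A W b x := by
      rw [hlb, hla, hg, ← Finset.sum_sub_distrib, Finset.mul_sum]
      refine Finset.sum_le_sum fun y _ => ?_
      by_cases h : r < 4 * t y
      · rw [if_pos h, sub_self, mul_zero]
        exact mul_nonneg (hP0 y) (Real.sqrt_nonneg _)
      · rw [if_neg h, mul_zero, sub_zero, mul_left_comm]
        refine mul_le_mul_of_nonneg_left ?_ (hP0 y)
        rw [← Real.sqrt_mul (by norm_num)]
        exact Real.sqrt_le_sqrt (hs2 y h)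
    have h6 : l ^ 2 / 2 ≤ l1 A W b x ^ 2 := by
      have h7 : Real.sqrt 2 * (l / 2) ≤ l1 A W b x := by
        refine le_trans (mul_le_mul_of_nonneg_left ?_ (Real.sqrt_nonneg _)) h5
        linarith
      have h8 : (Real.sqrt 2 * (l / 2)) ^ 2 ≤ l1 A W b x ^ 2 :=
        pow_le_pow_left₀ (by positivity) h7 2
      rw [mul_pow, Real.sq_sqrt (by norm_num)] at h8
      nlinarith
    have h9 : θ / 8 * v2 A W b x ≤ l1 A W b x ^ 2 := by nlinarith
    have e5 : mobc A W b (θ / 8) x = mm A W x * v2 A W b x := by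
      unfold mobc
      rw [if_pos h9]
    rw [e5]
    have := mul_le_mul_of_nonneg_left h3 hm.le
    linarith

end row

/-! ### averaged -/

section avg

variable {ι κ κ' : Type*} [Fintype ι] [DecidableEq ι] [Fintype κ] [Fintype κ']
  {A : Matrix ι ι ℝ} {Λ : Type*} [Fintype Λ] {p : Λ → ℝ} {ν : Λ → Measure ℝ} {E : ℝ}
  {a : κ → ι → ℝ} {b : κ' → ι → ℝ}

theorem MobG_bridge (hA : A.IsSymm) [∀ k, IsProbabilityMeasure (ν k)] (hp : ∀ k, 0 ≤ p k)
    {e w : (ι → Λ) → ι → ℝ} (he : ∀ l x, 0 < e l x) (hw0 : ∀ l x, 0 ≤ w l x)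
    (hwe : ∀ l x, w l x ≤ e l x) {r θ : ℝ} (hr : 0 < r) (hθ : 0 < θ) (hθ1 : θ ≤ 1)
    (hab : ∀ x y, d2 b x y = r * (4 * d2 a x y) / (r + 4 * d2 a x y)) :
    MobG A p ν E a e w θ ≤ MobG A p ν E b e w (θ / 8) + 16 / (θ * r) * M4G A p ν E a e := by
  classical
  unfold MobG SG M4G AvG
  rw [Finset.mul_sum, ← Finset.sum_add_distrib]
  refine Finset.sum_le_sum fun l _ => ?_
  have hpr : 0 ≤ ∏ x, p (l x) := Finset.prod_nonneg fun x _ => hp _
  rw [mul_left_comm, ← mul_add]
  refine mul_le_mul_of_nonneg_left ?_ hpr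
  have hW : ∀ v, ∀ x, (WV E (e l) v x).im < 0 := fun v => WV_neg (he l) v
  -- rows
  have hMw : ∀ v x, w l x * (mm A (WV E (e l) v) x *
      ∑ y, PP A (WV E (e l) v) x y * d2 a y x ^ 2) ≤
      ∑ y, (-(WV E (e l) v x).im) * (-(WV E (e l) v y).im) * KK A (WV E (e l) v) x y *
        d2 a x y ^ 2 := by
    intro v x
    have hm := mm_pos hA (hW v) x
    have h1 : mm A (WV E (e l) v) x * ∑ y, PP A (WV E (e l) v) x y * d2 a y x ^ 2 =
        ∑ y, (-(WV E (e l) v y).im) * KK A (WV E (e l) v) x y * d2 a x y ^ 2 := by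
      rw [Finset.mul_sum]
      refine Finset.sum_congr rfl fun y _ => ?_
      have h2 : d2 a y x = d2 a x y := by
        unfold d2
        exact Finset.sum_congr rfl fun k _ => by ring
      rw [h2, PP]
      field_simp
    rw [h1]
    have h3 : w l x ≤ -(WV E (e l) v x).im := by
      rw [WV_im0, neg_neg]
      exact hwe l x
    refine (mul_le_mul_of_nonneg_right h3 ?_).trans (le_of_eq ?_)
    · refine Finset.sum_nonneg fun y _ => mul_nonneg (mul_nonneg ?_ (KK_nonneg _ _)) (sq_nonneg _)
      linarith [hW v y]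
    · rw [Finset.mul_sum]
      exact Finset.sum_congr rfl fun y _ => by ring
  have hi1 : ∀ x, Integrable (fun v => mobc A (WV E (e l) v) a θ x)
      (Measure.pi fun x => ν (l x)) := fun x => integrable_mobc hA _ E (he l) a θ x
  have hi2 : ∀ x, Integrable (fun v => mobc A (WV E (e l) v) b (θ / 8) x)
      (Measure.pi fun x => ν (l x)) := fun x => integrable_mobc hA _ E (he l) b (θ / 8) x
  have hi3 := integrable_M4 (a := a) hA (Measure.pi fun x => ν (l x)) E (he l)
  have e1 : ∀ (c : κ → ι → ℝ) (θ' : ℝ), (∀ x, Integrable (fun v => mobc A (WV E (e l) v) c θ' x)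
      (Measure.pi fun x => ν (l x))) → ∑ x, w l x * Ex (fun x => ν (l x)) E (e l)
        (fun W => mobc A W c θ' x) =
      ∫ v, ∑ x, w l x * mobc A (WV E (e l) v) c θ' x ∂(Measure.pi fun x => ν (l x)) := by
    intro c θ' hc
    unfold Ex
    rw [integral_finset_sum _ fun x _ => (hc x).const_mul _]
    exact Finset.sum_congr rfl fun x _ => by rw [integral_const_mul]
  have e2 : ∀ (c : κ' → ι → ℝ) (θ' : ℝ), (∀ x, Integrable (fun v => mobc A (WV E (e l) v) c θ' x)
      (Measure.pi fun x => ν (l x))) → ∑ x, w l x * Ex (fun x => ν (l x)) E (e l)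
        (fun W => mobc A W c θ' x) =
      ∫ v, ∑ x, w l x * mobc A (WV E (e l) v) c θ' x ∂(Measure.pi fun x => ν (l x)) := by
    intro c θ' hc
    unfold Ex
    rw [integral_finset_sum _ fun x _ => (hc x).const_mul _]
    exact Finset.sum_congr rfl fun x _ => by rw [integral_const_mul]
  rw [e1 a θ hi1, e2 b (θ / 8) hi2]
  unfold Ex
  rw [← integral_const_mul, ← integral_add (integrable_finset_sum _ fun x _ =>
    (hi2 x).const_mul _) (hi3.const_mul _)]
  refine integral_mono (integrable_finset_sum _ fun x _ => (hi1 x).const_mul _)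
    ((integrable_finset_sum _ fun x _ => (hi2 x).const_mul _).add (hi3.const_mul _)) fun v => ?_
  simp only
  rw [Finset.mul_sum, ← Finset.sum_add_distrib]
  refine Finset.sum_le_sum fun x _ => ?_
  have h4 := mul_le_mul_of_nonneg_left (mobc_bridge hA (hW v) a b hr hθ hθ1 hab x) (hw0 l x)
  refine h4.trans ?_
  rw [mul_add, mul_left_comm (w l x)]
  have h5 := mul_le_mul_of_nonneg_left (hMw v x) (show (0 : ℝ) ≤ 16 / (θ * r) by positivity)
  linarith

end avg

end P365T2.X629
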