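import Vale.Agent.P365.T2.XDefs629
import Vale.Agent.P365.T2.H629.Bridge

/-!
# P365 T2: the fact `mob` of `OneFacts2` for the states `Sta`, and smallness of `ErrX` (629)
-/

set_option linter.all false

namespace P365T2.X629

open P365L P365O P365T1 P365L.TL Matrix Complex MeasureTheory Filter Topology Set
open Vale.Agent.P365.J376 P365H219 P365T2.H213 P365T2.H320U
open scoped ComplexConjugate ENNReal

/-! ### elementary facts on stages -/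

section ok

variable {N : ℕ} [NeZero N] {W : StW N} {lam E C1 η τ : ℝ}

theorem Ok_eT_pos (h : W.Ok lam E C1 η) (τ : ℝ) (l : Tor N → W.Λ) (x : Tor N) :
    0 < eT W.u W.w τ l x := by
  obtain ⟨b, hb, hub⟩ := h.u_pos
  exact eT_pos hb hub h.w_nonneg τ l x

theorem Ok_wT_nonneg (h : W.Ok lam E C1 η) (τ : ℝ) (l : Tor N → W.Λ) (x : Tor N) :
    0 ≤ wT W.w τ l x := wT_nonneg h.w_nonneg τ l x

theorem Ok_u_pos (h : W.Ok lam E C1 η) (l : Tor N → W.Λ) (x : Tor N) : 0 < W.u l x := by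
  obtain ⟨b, hb, hub⟩ := h.u_pos
  exact hb.trans_le (hub l x)

theorem Ok_wT_le (h : W.Ok lam E C1 η) (τ : ℝ) (l : Tor N → W.Λ) (x : Tor N) :
    wT W.w τ l x ≤ eT W.u W.w τ l x := by
  have := Ok_u_pos h l x
  unfold wT eT
  linarith

theorem M4_eq (W : StW N) (E τ : ℝ) :
    W.M4 E τ = M4G (AT N) W.p W.ν E (phi N) (eT W.u W.w τ) := rfl

theorem M4_nonneg (h : W.Ok lam E C1 η) (τ : ℝ) : 0 ≤ W.M4 E τ := by
  rw [M4_eq]
  exact M4G_nonneg h.p_nonneg (Ok_eT_pos h τ)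

theorem EM_nonneg (h : W.Ok lam E C1 η) {g : (Tor N → W.Λ) → Tor N → ℝ}
    (hg : ∀ l x, 0 ≤ g l x) (τ : ℝ) : 0 ≤ W.EM E g τ := by
  unfold StW.EM StW.Av AvG
  refine Finset.sum_nonneg fun l _ => mul_nonneg (Finset.prod_nonneg fun x _ => h.p_nonneg _)
    (Ex_nonneg _ _ _ fun v => Finset.sum_nonneg fun x _ => mul_nonneg (hg l x) ?_)
  exact (mm_pos (AT_symm N) (WV_neg (Ok_eT_pos h τ l) v) x).le

theorem Yg_nonneg (h : W.Ok lam E C1 η) {κ : Type} [Fintype κ] (F : κ → Tor N → ℝ) (τ : ℝ) :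
    0 ≤ W.Yg E F τ :=
  YG_nonneg h.p_nonneg (Ok_eT_pos h τ) (Ok_wT_nonneg h τ)

theorem Phi_nonneg (h : W.Ok lam E C1 η) {κ : Type} [Fintype κ] (F : κ → Tor N → ℝ) (τ : ℝ) :
    0 ≤ W.Phi E F τ :=
  PhiG_nonneg h.p_nonneg fun l x => (Ok_eT_pos h τ l x).le

theorem ErrX_nonneg (h : W.Ok lam E C1 η) (D τ : ℝ) : 0 ≤ ErrX W E D τ := by
  unfold ErrX
  have h1 := Yg_nonneg h (uF N (nJ D W.S)) τ
  have h2 := EM_nonneg h (g := W.u) (fun l x => (Ok_u_pos h l x).le) τ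
  have h3 := M4_nonneg h τ
  positivity

theorem EnX_nonneg (h : W.Ok lam E C1 η) (D τ : ℝ) : 0 ≤ EnX W E D τ := by
  unfold EnX
  have h1 := Phi_nonneg h (uF N (nJ D W.S)) τ
  positivity

theorem LossX_nonneg (h : W.Ok lam E C1 η) (D τ : ℝ) : 0 ≤ LossX W E D τ := by
  unfold LossX StW.LossF
  have h1 := LossG_nonneg (ν := W.ν) (E := E) (f := uF N (nJ D W.S)) (AT_symm N) h.p_nonneg
    (Ok_eT_pos h τ) (Ok_wT_nonneg h τ)
  positivity

theorem MobX_nonneg (h : W.Ok lam E C1 η) (D θ τ : ℝ) : 0 ≤ MobX W E D θ τ := by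
  unfold MobX
  have h1 := MobG_nonneg (ν := W.ν) (E := E) (a := fR N (nJ D W.S)) (AT_symm N) h.p_nonneg
    (Ok_eT_pos h τ) (Ok_wT_nonneg h τ) θ
  positivity

end ok

/-! ### the function `phiF` -/

theorem phiF_le_sqrt {θ : ℝ} (hθ : 0 < θ) : phiF θ ≤ 2 * Real.sqrt θ := by
  have hs : 0 < Real.sqrt θ := Real.sqrt_pos.2 hθ
  have hss : Real.sqrt θ * Real.sqrt θ = θ := Real.mul_self_sqrt hθ.le
  have h1 : Real.log (1 / θ) = 2 * Real.log (1 / Real.sqrt θ) := by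
    rw [show (1 : ℝ) / θ = (1 / Real.sqrt θ) ^ 2 by
      rw [div_pow, one_pow, Real.sq_sqrt hθ.le], Real.log_pow]
    norm_num
  have h2 : Real.log (1 / Real.sqrt θ) ≤ 1 / Real.sqrt θ - 1 :=
    Real.log_le_sub_one_of_pos (by positivity)
  unfold phiF
  rw [h1]
  have h3 : θ * (1 + 2 * Real.log (1 / Real.sqrt θ)) ≤ θ * (1 + 2 * (1 / Real.sqrt θ - 1)) :=
    mul_le_mul_of_nonneg_left (by linarith) hθ.le
  have h4 : θ * (1 / Real.sqrt θ) = Real.sqrt θ := by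
    field_simp
    linarith [hss, Real.sq_sqrt hθ.le]
  have h5 : θ * (1 + 2 * (1 / Real.sqrt θ - 1)) = 2 * (θ * (1 / Real.sqrt θ)) - θ := by ring
  rw [h5, h4] at h3
  linarith

/-! ### mobility -/

/-- **`OneFacts2.mob`** for the states -/
theorem mob_fact (ρ : ℝ) (hρ : 0 < ρ) : ∃ θ : ℝ, 0 < θ ∧ ∃ C : ℝ, 0 < C ∧
    ∀ {lam E C1 : ℝ} (s : Sta lam E C1), s.Gr ≤ C * s.Mob θ + ρ * s.En := by
  set q : ℝ := min 1 (ρ / 592) with hq
  have hq0 : 0 < q := lt_min one_pos (by positivity)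
  have hq1 : q ≤ 1 := min_le_left _ _
  have hqρ : q ≤ ρ / 592 := min_le_right _ _
  set θ : ℝ := q ^ 2 with hθ
  have hθ0 : 0 < θ := by positivity
  have hθ1 : θ ≤ 1 := by rw [hθ]; nlinarith
  have hφ : 296 * phiF θ ≤ ρ := by
    have h1 := phiF_le_sqrt hθ0
    rw [hθ, Real.sqrt_sq hq0.le] at h1
    rw [← hθ] at h1
    linarith
  refine ⟨θ / 8, by positivity, 296 * (1 + 16 / θ), by positivity, fun {lam E C1} s => ?_⟩
  obtain ⟨N, W, hok, τ, hτ⟩ := s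
  change GrX W E τ ≤ 296 * (1 + 16 / θ) * (MobX W E C1 (θ / 8) τ + ErrX W E C1 τ) +
    ρ * EnX W E C1 τ
  haveI := hok.prob
  have he := Ok_eT_pos hok τ
  have hw := Ok_wT_nonneg hok τ
  have hwe := Ok_wT_le hok τ
  have hA := AT_symm N
  have hN : 0 < (N : ℝ) ^ 2 := by
    have : (0 : ℝ) < N := Nat.cast_pos.2 (Nat.pos_of_ne_zero (NeZero.ne N))
    positivity
  set J := nJ C1 W.S with hJ
  have h1 := GrG_le (ν := W.ν) (E := E) (a := phi N) hA hok.p_nonneg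
    (Finset.range (nL W.S)) he hw hθ0 hθ1
  have h2 := ContG_le (ν := W.ν) (E := E) (a := phi N) hA hok.p_nonneg he hwe
  have h3 := PhiG_le_uF (ν := W.ν) (E := E) (N := N) (J := J) hA hok.p_nonneg he
  have h4 := MobG_bridge (ν := W.ν) (E := E) (a := phi N) (b := fR N J) hA hok.p_nonneg he hw hwe
    (r := (4 : ℝ) ^ J) (by positivity) hθ0 hθ1 (fun x y => by
      have h5 := fR_spec (N := N) (J := J) x y
      unfold P365T2.H37.hk at h5
      exact h5)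
  rw [Fintype.card_fin] at h1
  have h6 : (0 : ℝ) ≤ phiF θ := (phiF_pos hθ0 hθ1).le
  set G := GrG (AT N) W.p W.ν E (phi N) (Finset.range (nL W.S)) (eT W.u W.w τ) (wT W.w τ)
  set Mp := MobG (AT N) W.p W.ν E (phi N) (eT W.u W.w τ) (wT W.w τ) θ
  set Mr := MobG (AT N) W.p W.ν E (fR N J) (eT W.u W.w τ) (wT W.w τ) (θ / 8) with hMr
  set Ct := ContG (AT N) W.p W.ν E (phi N) (eT W.u W.w τ) (wT W.w τ)
  set Ph := PhiG (AT N) W.p W.ν E (phi N) (eT W.u W.w τ)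
  set Pu := PhiG (AT N) W.p W.ν E (uF N J) (eT W.u W.w τ) with hPu
  set M4 := M4G (AT N) W.p W.ν E (phi N) (eT W.u W.w τ) with hM4
  have hPu0 : 0 ≤ Pu := Phi_nonneg hok (uF N J) τ
  have hM40 : 0 ≤ M4 := M4G_nonneg hok.p_nonneg he
  have hMr0 : 0 ≤ Mr := MobG_nonneg hA hok.p_nonneg he hw _
  have hY := Yg_nonneg hok (uF N J) τ
  have hU := EM_nonneg hok (g := W.u) (fun l x => (Ok_u_pos hok l x).le) τ
  -- the error
  have e1 : M4 / 4 ^ J ≤ ErrX W E C1 τ * (N : ℝ) ^ 2 := by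
    unfold ErrX
    rw [add_mul, add_mul, div_mul_cancel₀ _ hN.ne', ← hJ]
    have : 0 ≤ (16 : ℝ) ^ J * W.EM E W.u τ := mul_nonneg (by positivity) hU
    have e0 : 0 ≤ 1 / |W.S| * (N : ℝ) ^ 2 := by positivity
    have e00 : 0 ≤ 192 * 4 ^ J / (N : ℝ) * (N : ℝ) ^ 2 := by positivity
    have e2 : W.M4 E τ = M4 := rfl
    rw [e2]
    linarith
  have e3 : MobX W E C1 (θ / 8) τ * (N : ℝ) ^ 2 = Mr := by
    unfold MobX
    rw [div_mul_cancel₀ _ hN.ne']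
  have e4 : EnX W E C1 τ * (N : ℝ) ^ 2 = Pu := by
    unfold EnX
    rw [div_mul_cancel₀ _ hN.ne']
    rfl
  have e5 : GrX W E τ * (N : ℝ) ^ 2 = G := by
    unfold GrX
    rw [div_mul_cancel₀ _ hN.ne']
  refine le_of_mul_le_mul_right ?_ hN
  rw [e5, add_mul, mul_assoc, mul_assoc ρ, e4, add_mul, e3]
  have h7 : 16 / (θ * 4 ^ J) * M4 = 16 / θ * (M4 / 4 ^ J) := by
    field_simp
  rw [h7] at h4
  have hc : 0 ≤ 16 / θ := by positivity
  have hE0 : 0 ≤ ErrX W E C1 τ * (N : ℝ) ^ 2 := mul_nonneg (ErrX_nonneg hok _ _) hN.le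
  have h8 : 16 / θ * (M4 / 4 ^ J) ≤ 16 / θ * (ErrX W E C1 τ * (N : ℝ) ^ 2) :=
    mul_le_mul_of_nonneg_left e1 hc
  have h9 : phiF θ * Ct ≤ phiF θ * Pu := mul_le_mul_of_nonneg_left (h2.trans h3) h6
  have h10 : 296 * phiF θ * Pu ≤ ρ * Pu := mul_le_mul_of_nonneg_right hφ hPu0
  have h11 : 0 ≤ 16 / θ * Mr := mul_nonneg hc hMr0
  have h12 : G ≤ 74 * ((4 : ℕ) : ℝ) * (Mp + phiF θ * Ct) := h1
  push_cast at h12
  nlinarith

end P365T2.X629
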